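import Vale.Agent.P361.Defs
import Vale.Agent.P361.H18_Main

open Filter Topology

namespace Vale.Agent.Results.P361.BlochHalf

open Vale.Agent.P361

theorem result (n : ℕ) (hn : 0 < n) :
    (spin n 0 * spin n 1 - spin n 1 * spin n 0 = Complex.I • spin n 2 ∧
      spin n 1 * spin n 2 - spin n 2 * spin n 1 = Complex.I • spin n 0 ∧
      spin n 2 * spin n 0 - spin n 0 * spin n 2 = Complex.I • spin n 1 ∧
      ∑ a, spin n a * spin n a = (((n : ℂ) / 2) * ((n : ℂ) / 2 + 1)) • 1) ∧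
    (∀ β : ℝ, 0 < β →
      (∀ h : ℝ, Tendsto (fun N => pressureN n N β h) atTop (𝓝 (pressure n β h))) ∧
      ConvexOn ℝ Set.univ (pressure n β) ∧
      HasDerivWithinAt (pressure n β) (spontMag n β) (Set.Ioi 0) 0 ∧
      0 ≤ spontMag n β ∧ spontMag n β ≤ (n : ℝ) / 2) ∧
    (((riemannZeta (3 / 2)).re / (8 * Real.pi ^ (3 / 2 : ℝ) * ((n : ℝ) / 2) ^ (3 / 2 : ℝ)) : ℝ) :
      EReal) ≤ liminf (fun β : ℝ => ((β ^ (3 / 2 : ℝ) * ((n : ℝ) / 2 - spontMag n β) : ℝ) : EReal))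
        atTop :=
  H18.main n hn

end Vale.Agent.Results.P361.BlochHalf
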